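import Mathlib

/-!
# P022-L3, [ORB], [ECH]: automorphisms of `ℂ`, descent of finite dimensional spaces to `ℚ̄`
-/

namespace Vale.Agent.P022.H964.L3

open MvPolynomial

section Lift

variable {k C : Type} [Field k] [Field C] [Algebra k C] [IsAlgClosed C]

/-- An automorphism of the polynomial ring on a transcendence basis extends. -/
theorem exists_ext {ι : Type} {v : ι → C} (hv : IsTranscendenceBasis k v)
    (θ : MvPolynomial ι k ≃+* MvPolynomial ι k) :
    ∃ σ : C ≃+* C, ∀ p : MvPolynomial ι k, σ (aeval v p) = aeval v (θ p) := by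
  let := IsAlgClosed.isAlgClosure_of_transcendence_basis v hv
  let e : Algebra.adjoin k (Set.range v) ≃+* Algebra.adjoin k (Set.range v) :=
    hv.1.aevalEquiv.symm.toRingEquiv.trans (θ.trans hv.1.aevalEquiv.toRingEquiv)
  refine ⟨IsAlgClosure.equivOfEquiv C C e, fun p => ?_⟩
  have h1 : ∀ q : MvPolynomial ι k,
      algebraMap (Algebra.adjoin k (Set.range v)) C (hv.1.aevalEquiv q) = aeval v q := fun q =>
    hv.1.algebraMap_aevalEquiv q
  rw [← h1, ← h1, IsAlgClosure.equivOfEquiv_algebraMap]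
  congr 1
  change hv.1.aevalEquiv (θ (hv.1.aevalEquiv.symm (hv.1.aevalEquiv p))) = _
  rw [AlgEquiv.symm_apply_apply]

/-- **[ORB] (ii)** automorphisms extend to an algebraically closed field. -/
theorem exists_lift (τ : k ≃+* k) :
    ∃ σ : C ≃+* C, ∀ x : k, σ (algebraMap k C x) = algebraMap k C (τ x) := by
  obtain ⟨s, hs⟩ := exists_isTranscendenceBasis k C
  obtain ⟨σ, hσ⟩ := exists_ext hs (MvPolynomial.mapEquiv s τ)
  refine ⟨σ, fun x => ?_⟩
  have h := hσ (MvPolynomial.C x)
  rw [MvPolynomial.mapEquiv_apply, MvPolynomial.map_C, MvPolynomial.aeval_C,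
    MvPolynomial.aeval_C] at h
  exact h

/-- The translation by `c` of the variables. -/
noncomputable def trans {ι : Type} (c : ι → k) : MvPolynomial ι k ≃ₐ[k] MvPolynomial ι k :=
  AlgEquiv.ofAlgHom (aeval fun i => X i + MvPolynomial.C (c i))
    (aeval fun i => X i - MvPolynomial.C (c i))
    (by ext i; simp) (by ext i; simp)

theorem trans_X {ι : Type} (c : ι → k) (i : ι) :
    trans c (X i) = X i + MvPolynomial.C (c i) := by
  unfold trans
  simp

/-- The shift of a transcendental element. -/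
theorem exists_shift (z : C) (hz : Transcendental k z) : ∃ σ : C ≃ₐ[k] C, σ z = z + 1 := by
  classical
  have hz' : AlgebraicIndepOn k id ({z} : Set C) :=
    (algebraicIndependent_unique_type_iff (ι := ({z} : Set C))).2 hz
  obtain ⟨s, hzs, hs⟩ := exists_isTranscendenceBasis_superset hz'
  obtain ⟨σ, hσ⟩ := exists_ext hs
    (trans fun i : s => if (i : C) = z then (1 : k) else 0).toRingEquiv
  have h1 : ∀ x : k, σ (algebraMap k C x) = algebraMap k C x := by
    intro x
    have h := hσ (MvPolynomial.C x)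
    rw [MvPolynomial.aeval_C] at h
    rw [h]
    have h2 : (trans fun i : s => if (i : C) = z then (1 : k) else 0).toRingEquiv
        (MvPolynomial.C x) = MvPolynomial.C x :=
      (trans fun i : s => if (i : C) = z then (1 : k) else 0).commutes x
    rw [h2, MvPolynomial.aeval_C]
  refine ⟨AlgEquiv.ofRingEquiv (f := σ) h1, ?_⟩
  have h := hσ (X ⟨z, hzs rfl⟩)
  rw [MvPolynomial.aeval_X] at h
  change σ z = z + 1
  rw [h]
  have h2 : (trans fun i : s => if (i : C) = z then (1 : k) else 0).toRingEquiv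
      (X ⟨z, hzs rfl⟩) = X ⟨z, hzs rfl⟩ + MvPolynomial.C 1 := by
    refine (trans_X _ _).trans ?_
    rw [if_pos rfl]
  rw [h2, map_add, MvPolynomial.aeval_X, MvPolynomial.aeval_C, map_one]

/-- **[ORB] (i)** an element with a finite orbit under `Aut (C / k)` is algebraic over `k`. -/
theorem isAlgebraic_of_finite [CharZero k] (z : C)
    (h : (Set.range fun σ : C ≃ₐ[k] C => σ z).Finite) : IsAlgebraic k z := by
  by_contra hz
  obtain ⟨σ, hσ⟩ := exists_shift z hz
  have h1 : ∀ n : ℕ, (σ ^ n) z = z + n := by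
    intro n
    induction n with
    | zero => simp
    | succ n ih =>
      rw [pow_succ', AlgEquiv.mul_apply, ih, map_add, hσ, map_natCast]
      push_cast
      ring
  have : CharZero C := charZero_of_injective_algebraMap (algebraMap k C).injective
  refine h.not_infinite (Set.Infinite.mono (s := Set.range fun n : ℕ => z + (n : C)) ?_ ?_)
  · rintro _ ⟨n, rfl⟩
    exact ⟨σ ^ n, h1 n⟩
  · refine Set.infinite_range_of_injective fun a b hab => ?_
    exact Nat.cast_injective (add_left_cancel hab)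

end Lift

section Complex

/-- The algebraic numbers. -/
noncomputable abbrev Qa : IntermediateField ℚ ℂ := algebraicClosure ℚ ℂ

/-- **[ORB] (i)** for the complex numbers. -/
theorem alg_of_finite (z : ℂ) (h : (Set.range fun σ : ℂ ≃ₐ[Qa] ℂ => σ z).Finite) :
    IsAlgebraic ℚ z := by
  have h1 := isAlgebraic_of_finite z h
  by_contra h2
  exact (Transcendental.algebraicClosure h2) h1

theorem range_emb (i : AlgebraicClosure ℚ →+* ℂ) : Set.range i = {z | IsAlgebraic ℚ z} := by
  ext z
  constructor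
  · rintro ⟨x, rfl⟩
    exact ((AlgebraicClosure.isAlgebraic ℚ).isAlgebraic x).algHom i.toRatAlgHom
  · intro hz
    have h0 : minpoly ℚ z ≠ 0 := minpoly.ne_zero hz.isIntegral
    have h1 : z ∈ (minpoly ℚ z).rootSet ℂ := by
      rw [Polynomial.mem_rootSet]
      exact ⟨h0, minpoly.aeval ℚ z⟩
    rw [← Polynomial.Splits.image_rootSet (IsAlgClosed.splits ((minpoly ℚ z).map
      (algebraMap ℚ (AlgebraicClosure ℚ)))) i.toRatAlgHom] at h1
    obtain ⟨x, _, hx⟩ := h1
    exact ⟨x, hx⟩

/-- **[ORB] (ii)** for the complex numbers: every automorphism of `ℚ̄` extends to `ℂ`. -/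
theorem exists_ext_C (i : AlgebraicClosure ℚ →+* ℂ)
    (τ : AlgebraicClosure ℚ ≃ₐ[ℚ] AlgebraicClosure ℚ) :
    ∃ σ : ℂ ≃+* ℂ, ∀ x, σ (i x) = i (τ x) := by
  let := i.toAlgebra
  exact exists_lift τ.toRingEquiv

/-- Two extensions differ by an automorphism over the algebraic numbers. -/
theorem exists_mul (i : AlgebraicClosure ℚ →+* ℂ) (σ σ' : ℂ ≃+* ℂ) (h : ∀ x, σ (i x) = σ' (i x)) :
    ∃ ρ : ℂ ≃ₐ[Qa] ℂ, ∀ z, σ z = σ' (ρ z) := by
  refine ⟨AlgEquiv.ofRingEquiv (f := σ.trans σ'.symm) fun x => ?_, fun z => ?_⟩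
  · have hx : (x : ℂ) ∈ Set.range i := by
      rw [range_emb]
      exact mem_algebraicClosure_iff.1 x.2
    obtain ⟨y, hy⟩ := hx
    change σ'.symm (σ (x : ℂ)) = (x : ℂ)
    rw [← hy, h, RingEquiv.symm_apply_apply]
  · exact (σ'.apply_symm_apply _).symm

end Complex

end Vale.Agent.P022.H964.L3
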