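import Mathlib

/-!
# P022-L3, [ROOTLS], [EXT]: roots in `k((X))`, extension of places to radical extensions
-/

namespace Vale.Agent.P022.H964.L3

open PowerSeries

section Root

variable {k : Type} [Field k] [CharZero k]

theorem exists_root_one (N : ℕ) (hN : 0 < N) (m : k⟦X⟧) (hm : constantCoeff m = 0) :
    ∃ g : k⟦X⟧, g ^ N = 1 + m := by
  have hs : HasSubst m := HasSubst.of_constantCoeff_zero' hm
  have h1 : ∀ d : ℕ, (binomialSeries k ((1 : ℚ) / N)) ^ d = binomialSeries k ((d : ℚ) / N) := by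
    intro d
    induction d with
    | zero => simp
    | succ d ih =>
      rw [pow_succ, ih, ← binomialSeries_add]
      congr 1
      push_cast
      ring
  have h2 : (binomialSeries k ((1 : ℚ) / N)) ^ N = 1 + X := by
    rw [h1, div_self (Nat.cast_ne_zero.2 hN.ne')]
    have := binomialSeries_nat (R := ℚ) (A := k) 1
    rw [Nat.cast_one, pow_one] at this
    exact this
  refine ⟨(binomialSeries k ((1 : ℚ) / N)).subst m, ?_⟩
  rw [← subst_pow hs, h2, subst_add hs, subst_X hs]
  congr 1
  rw [← coe_substAlgHom hs, map_one]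

theorem exists_root_unit [IsAlgClosed k] (N : ℕ) (hN : 0 < N) (u : k⟦X⟧)
    (hu : constantCoeff u ≠ 0) : ∃ g : k⟦X⟧, g ^ N = u := by
  obtain ⟨c, hc⟩ := IsAlgClosed.exists_pow_nat_eq (constantCoeff u) hN
  obtain ⟨g, hg⟩ := exists_root_one N hN (C (constantCoeff u)⁻¹ * u - 1) (by
    rw [map_sub, map_mul, map_one]
    simp [hu])
  refine ⟨C c * g, ?_⟩
  rw [mul_pow, hg, ← map_pow, hc, add_sub_cancel, ← mul_assoc, ← map_mul, mul_inv_cancel₀ hu,
    map_one, one_mul]

/-- **[ROOTLS]** -/
theorem exists_root [IsAlgClosed k] (N : ℕ) (hN : 0 < N) (f : LaurentSeries k)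
    (hf : (N : ℤ) ∣ f.order) : ∃ g : LaurentSeries k, g ^ N = f := by
  by_cases h0 : f = 0
  · exact ⟨0, by rw [h0, zero_pow hN.ne']⟩
  obtain ⟨m, hm⟩ := hf
  have h1 : constantCoeff f.powerSeriesPart ≠ 0 := by
    rw [← coeff_zero_eq_constantCoeff_apply, LaurentSeries.powerSeriesPart_coeff]
    simpa using h0
  obtain ⟨g, hg⟩ := exists_root_unit N hN _ h1
  refine ⟨HahnSeries.single m 1 * (g : LaurentSeries k), ?_⟩
  rw [mul_pow, HahnSeries.single_pow, one_pow, ← map_pow (HahnSeries.ofPowerSeries ℤ k), hg,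
    nsmul_eq_mul, ← hm]
  exact LaurentSeries.single_order_mul_powerSeriesPart f

/-- The polynomial `X ^ N - g ^ N` splits over a field with the roots of unity of an algebraically
closed subfield. -/
theorem splits_pow {F : Type} [Field F] [Algebra k F] [IsAlgClosed k] (N : ℕ) (hN : 0 < N)
    (g : F) : (Polynomial.X ^ N - Polynomial.C (g ^ N) : Polynomial F).Splits := by
  have : NeZero N := ⟨hN.ne'⟩
  have : NeZero (N : k) := ⟨Nat.cast_ne_zero.2 hN.ne'⟩
  obtain ⟨ζ, hζ⟩ := HasEnoughRootsOfUnity.exists_primitiveRoot k N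
  exact X_pow_sub_C_splits_of_isPrimitiveRoot (hζ.map_of_injective (algebraMap k F).injective) rfl

/-- **[EXT]** a place of `K` extends to a radical extension if the orders are divisible. -/
theorem ext_roots [IsAlgClosed k] {K L : Type} [Field K] [Field L] [Algebra k K] [Algebra k L]
    [Algebra K L] [IsScalarTower k K L] (θ : K →ₐ[k] LaurentSeries k) (N : ℕ) (hN : 0 < N)
    (S : Set L) (hS : ∀ s ∈ S, ∃ a : K, s ^ N = algebraMap K L a ∧ (N : ℤ) ∣ (θ a).order)
    (htop : IntermediateField.adjoin K S = ⊤) :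
    ∃ θ' : L →ₐ[k] LaurentSeries k, ∀ x, θ' (algebraMap K L x) = θ x := by
  have hK : ∀ s ∈ S, IsIntegral K s ∧ ((minpoly K s).map θ.toRingHom).Splits := by
    intro s hs
    obtain ⟨a, ha, hN'⟩ := hS s hs
    obtain ⟨g, hg⟩ := exists_root N hN (θ a) hN'
    have h1 : Polynomial.aeval s (Polynomial.X ^ N - Polynomial.C a : Polynomial K) = 0 := by
      rw [map_sub, map_pow, Polynomial.aeval_X, Polynomial.aeval_C, ha, sub_self]
    have h2 : (Polynomial.X ^ N - Polynomial.C a : Polynomial K).Monic :=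
      Polynomial.monic_X_pow_sub_C a hN.ne'
    refine ⟨⟨_, h2, h1⟩, ?_⟩
    have h3 : (minpoly K s).map θ.toRingHom ∣
        (Polynomial.X ^ N - Polynomial.C a : Polynomial K).map θ.toRingHom :=
      Polynomial.map_dvd _ (minpoly.dvd K s h1)
    have h4 : (Polynomial.X ^ N - Polynomial.C a : Polynomial K).map θ.toRingHom =
        Polynomial.X ^ N - Polynomial.C (g ^ N) := by
      rw [Polynomial.map_sub, Polynomial.map_pow, Polynomial.map_X, Polynomial.map_C, hg]
      rfl
    rw [h4] at h3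
    exact (splits_pow (k := k) N hN g).of_dvd (Polynomial.X_pow_sub_C_ne_zero hN _) h3
  obtain ⟨φ, hφ⟩ := IntermediateField.exists_algHom_of_adjoin_splits' (F := k) θ (S := S) hK htop
  exact ⟨φ, fun x => congrArg (fun f : K →ₐ[k] LaurentSeries k => f x) hφ⟩

end Root

end Vale.Agent.P022.H964.L3
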