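import Vale.Agent.P022.H964.L3.KeyL
import Vale.Agent.P022.H783.KeyF

/-! # P022-L3, chapter G, row [KEYL]: `KeyStmt` -/

noncomputable section

open HahnSeries
open scoped IntermediateField

namespace Vale.Agent.P022.H964.L3

open Vale.Agent.P022.H542.L3 Vale.Agent.P022.H619.L3

/-- **[KEYL]** -/
theorem keyStmt : KeyStmt := by
  intro B G n ℓ hℓ hB hℓ2 O hO W hW f hf h1
  have hBv : O.valuation (B : ℂ) = 1 := val_eq_one hℓ hO hB
  have h2d : ¬ ℓ ∣ 2 := fun h => hℓ2 ((Nat.prime_dvd_prime_iff_eq hℓ Nat.prime_two).1 h)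
  have h2v : O.valuation ((2 : ℕ) : ℂ) = 1 := val_eq_one hℓ hO h2d
  have h2 : (2 : ℂ)⁻¹ ∈ O := by
    rw [← O.valuation_le_one_iff, map_inv₀]
    have : O.valuation (2 : ℂ) = 1 := by exact_mod_cast h2v
    rw [this, inv_one]
  have := G.fin
  have := G.gal
  have hS : ∀ a : ℂ, (∀ s ∈ SO G hBv, (s : ℂ) ≠ a) → G.Aff a := by
    intro a ha s hs has
    exact ha ⟨(s : ℂ), bint_mem hBv (G.Sint s hs)⟩ ((mem_SO G hBv).2 ⟨s, hs, rfl⟩) has.symm
  obtain ⟨g, hg⟩ := Vale.Agent.P022.H783.keyF G.p G.two O h2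
    (VK G W (2 ^ n) (pow_pos (by norm_num) n)) (gauss G hBv hW (2 ^ n) (pow_pos (by norm_num) n))
    (SO G hBv) (inj_SO G hBv) (fun a ha => G.pt a (hS a ha)) n (f : G.K)
    (fun a ha θ hθ => hf a (hS a ha) θ hθ) (by
      rw [VK_lt, map_sub, map_sub, map_one, map_one]
      exact h1)
  have hg0 : g ≠ 0 := by
    rintro rfl
    rw [zero_pow (pow_ne_zero _ two_ne_zero)] at hg
    exact f.ne_zero hg.symm
  refine G.mem_pw.2 ⟨Units.mk0 g hg0, Units.ext ?_⟩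
  rw [Units.val_pow_eq_pow_val, Units.val_mk0, hg]

end Vale.Agent.P022.H964.L3
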