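import Vale.Agent.P022.H964.L3.RootLS

/-!
# P022-L3, [SQC], [QUAD]: square classes of `k(p)` unramified outside `S`
-/

namespace Vale.Agent.P022.H964.L3

open Polynomial

section Sqc

variable {k : Type} [Field k]

/-- The series `a + X`. -/
noncomputable def lin (a : k) : LaurentSeries k := HahnSeries.C a + HahnSeries.single 1 1

theorem algMap (a : k) : algebraMap k (LaurentSeries k) a = HahnSeries.C a := by
  rw [LaurentSeries.algebraMap_apply]

theorem lin_sub (a b : k) : lin a - HahnSeries.C b =
    ((PowerSeries.C (a - b) + PowerSeries.X : PowerSeries k) : LaurentSeries k) := by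
  unfold lin
  rw [map_add, HahnSeries.ofPowerSeries_C, HahnSeries.ofPowerSeries_X, map_sub]
  ring

theorem coeff_lin_sub (a b : k) (n : ℤ) : (lin a - HahnSeries.C b).coeff n =
    if n < 0 then 0 else PowerSeries.coeff n.natAbs (PowerSeries.C (a - b) + PowerSeries.X) := by
  rw [lin_sub, PowerSeries.coeff_coe]

theorem lin_sub_ne (a b : k) : lin a - HahnSeries.C b ≠ 0 := by
  intro h
  have h1 := coeff_lin_sub a b 1
  rw [h] at h1
  simp [PowerSeries.coeff_X] at h1

theorem order_lin (a b : k) [DecidableEq k] :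
    (lin a - HahnSeries.C b).order = if a = b then 1 else 0 := by
  have h0 : ∀ n : ℤ, (lin a - HahnSeries.C b).coeff n ≠ 0 → 0 ≤ n := by
    intro n hn
    by_contra h
    rw [coeff_lin_sub, if_pos (not_le.1 h)] at hn
    exact hn rfl
  have h1 := h0 _ ((HahnSeries.coeff_order_eq_zero.not.2 (lin_sub_ne a b)))
  split_ifs with hab
  · refine le_antisymm (HahnSeries.order_le_of_coeff_ne_zero ?_) ?_
    · rw [coeff_lin_sub]
      simp [PowerSeries.coeff_X, PowerSeries.coeff_C]
    · by_contra h
      have h2 : (lin a - HahnSeries.C b).order = 0 := by omega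
      have h3 := (HahnSeries.coeff_order_eq_zero.not.2 (lin_sub_ne a b))
      rw [h2, coeff_lin_sub] at h3
      simp [hab] at h3
  · refine le_antisymm (HahnSeries.order_le_of_coeff_ne_zero ?_) h1
    rw [coeff_lin_sub]
    simpa [sub_eq_zero] using hab

theorem order_prod {ι : Type} (T : Finset ι) (f : ι → LaurentSeries k) (hf : ∀ i ∈ T, f i ≠ 0) :
    (∏ i ∈ T, f i) ≠ 0 ∧ (∏ i ∈ T, f i).order = ∑ i ∈ T, (f i).order := by
  classical
  induction T using Finset.induction_on with
  | empty => simp
  | insert i T hi ih =>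
    obtain ⟨h1, h2⟩ := ih fun j hj => hf j (Finset.mem_insert_of_mem hj)
    have h3 := hf i (Finset.mem_insert_self i T)
    rw [Finset.prod_insert hi, Finset.sum_insert hi]
    exact ⟨mul_ne_zero h3 h1, by rw [HahnSeries.order_mul h3 h1, h2]⟩

theorem order_pow' (f : LaurentSeries k) (hf : f ≠ 0) (n : ℕ) : (f ^ n).order = n * f.order := by
  have h := (order_prod (Finset.range n) (fun _ => f) fun _ _ => hf).2
  rw [Finset.prod_const, Finset.sum_const, Finset.card_range, nsmul_eq_mul] at h
  exact h

/-- The value of a polynomial in `p`. -/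
theorem aeval_eq [IsAlgClosed k] [DecidableEq k] {F : Type} [Field F] [Algebra k F] (p : F)
    (h : k[X]) : aeval p h = algebraMap k F h.leadingCoeff *
      ∏ b ∈ h.roots.toFinset, (p - algebraMap k F b) ^ h.roots.count b := by
  conv_lhs => rw [(IsAlgClosed.splits h).eq_prod_roots]
  rw [map_mul, aeval_C, map_multiset_prod, Multiset.map_map, Finset.prod_multiset_map_count]
  congr 1
  refine Finset.prod_congr rfl fun b _ => ?_
  simp

/-- **[SQC]** an element of `k(p)` whose orders outside `S` are even is a square times a product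
of factors `p - s`, `s ∈ S`. -/
theorem sqc [IsAlgClosed k] {F : Type} [Field F] [Algebra k F] (p : F) (S : Set k) (u : F)
    (hu : u ≠ 0) (hup : u ∈ IntermediateField.adjoin k {p})
    (hS : ∀ a, a ∉ S → ∃ θ : F →ₐ[k] LaurentSeries k, θ p = lin a ∧ Even (θ u).order) :
    ∃ (T : Finset k) (r : F), (T : Set k) ⊆ S ∧ r ∈ IntermediateField.adjoin k {p} ∧
      u = r ^ 2 * ∏ s ∈ T, (p - algebraMap k F s) := by
  classical
  obtain ⟨f, g, rfl⟩ := IntermediateField.mem_adjoin_simple_iff k u |>.1 hup
  have hg : aeval p g ≠ 0 := fun h => hu (by rw [h, div_zero])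
  have hf : aeval p f ≠ 0 := fun h => hu (by rw [h, zero_div])
  have hh : aeval p (f * g) ≠ 0 := by
    rw [map_mul]
    exact mul_ne_zero hf hg
  set h := f * g with hhd
  have hlc : algebraMap k F h.leadingCoeff ≠ 0 := by
    intro h0
    apply hh
    rw [aeval_eq p h, h0, zero_mul]
  obtain ⟨c, hc⟩ := IsAlgClosed.exists_pow_nat_eq h.leadingCoeff (n := 2) (by norm_num)
  have hpm : ∀ b : k, p - algebraMap k F b ∈ IntermediateField.adjoin k {p} := fun b =>
    sub_mem (IntermediateField.mem_adjoin_simple_self k p)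
      ((IntermediateField.adjoin k {p}).algebraMap_mem b)
  have hgm : aeval p g ∈ IntermediateField.adjoin k {p} :=
    (IntermediateField.mem_adjoin_simple_iff k _).2 ⟨g, 1, by rw [map_one, div_one]⟩
  refine ⟨h.roots.toFinset.filter fun b => h.roots.count b % 2 = 1,
    algebraMap k F c * (∏ b ∈ h.roots.toFinset, (p - algebraMap k F b) ^ (h.roots.count b / 2)) /
      aeval p g, ?_, ?_, ?_⟩
  · intro a ha
    rw [Finset.mem_coe, Finset.mem_filter] at ha
    by_contra haS
    obtain ⟨θ, hθ, hev⟩ := hS a haS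
    have hlcθ : θ (algebraMap k F h.leadingCoeff) ≠ 0 := (map_ne_zero θ).2 hlc
    have e1 : θ (aeval p h) = θ (algebraMap k F h.leadingCoeff) *
        ∏ b ∈ h.roots.toFinset, (lin a - HahnSeries.C b) ^ h.roots.count b := by
      rw [aeval_eq p h, map_mul, map_prod]
      congr 1
      refine Finset.prod_congr rfl fun b _ => ?_
      rw [map_pow, map_sub, hθ, AlgHom.commutes, algMap]
    have e2 : (θ (aeval p h)).order = h.roots.count a := by
      obtain ⟨q1, q2⟩ := order_prod h.roots.toFinset
        (fun b => (lin a - HahnSeries.C b) ^ h.roots.count b)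
        fun b _ => pow_ne_zero _ (lin_sub_ne a b)
      rw [e1, HahnSeries.order_mul hlcθ q1, q2]
      have q3 : (θ (algebraMap k F h.leadingCoeff)).order = 0 := by
        rw [AlgHom.commutes, algMap]
        exact HahnSeries.order_C
      rw [q3, zero_add, Finset.sum_eq_single a]
      · rw [order_pow' _ (lin_sub_ne a a), order_lin, if_pos rfl, mul_one]
      · intro b _ hb
        rw [order_pow' _ (lin_sub_ne a b), order_lin, if_neg (Ne.symm hb), mul_zero]
      · intro hna
        exact absurd ha.1 hna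
    have e3 : aeval p h = aeval p f / aeval p g * aeval p g ^ 2 := by
      rw [hhd, map_mul]
      field_simp
    have hθg : θ (aeval p g) ≠ 0 := (map_ne_zero θ).2 hg
    have hθu : θ (aeval p f / aeval p g) ≠ 0 := (map_ne_zero θ).2 hu
    rw [e3, map_mul, map_pow, HahnSeries.order_mul hθu (pow_ne_zero _ hθg),
      order_pow' _ hθg] at e2
    obtain ⟨m, hm⟩ := hev
    have h2 := ha.2
    omega
  · refine div_mem (mul_mem ((IntermediateField.adjoin k {p}).algebraMap_mem c)
      (prod_mem fun b _ => pow_mem (hpm b) _)) hgm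
  · have e1 : ∏ b ∈ h.roots.toFinset with h.roots.count b % 2 = 1, (p - algebraMap k F b) =
        ∏ b ∈ h.roots.toFinset, (p - algebraMap k F b) ^ (h.roots.count b % 2) := by
      rw [Finset.prod_filter]
      refine Finset.prod_congr rfl fun b _ => ?_
      split_ifs with h2
      · rw [h2, pow_one]
      · rw [show h.roots.count b % 2 = 0 by omega, pow_zero]
    have e2 : aeval p h = (algebraMap k F c) ^ 2 *
        ((∏ b ∈ h.roots.toFinset, (p - algebraMap k F b) ^ (h.roots.count b / 2)) ^ 2 *
        ∏ b ∈ h.roots.toFinset, (p - algebraMap k F b) ^ (h.roots.count b % 2)) := by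
      rw [aeval_eq p h, ← map_pow, hc, ← Finset.prod_pow, ← Finset.prod_mul_distrib]
      congr 1
      refine Finset.prod_congr rfl fun b _ => ?_
      rw [← pow_mul, ← pow_add]
      congr 1
      omega
    rw [e1, div_pow, mul_pow, div_mul_eq_mul_div, mul_assoc, ← e2, hhd, map_mul]
    field_simp

/-- **[QUAD]** the quadratic subextensions of a radical extension of `K ∋ p` which come from
`k(p)`: `L` is generated over `K` by `N`-th roots of elements whose orders outside `S` are
divisible by `N`. -/
theorem quad [CharZero k] [IsAlgClosed k] {K L : Type} [Field K] [Field L] [Algebra k K]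
    [Algebra k L] [Algebra K L] [IsScalarTower k K L] (p : K) (S : Set k) (N : ℕ) (hN : 0 < N)
    (R : Set L) (htop : IntermediateField.adjoin K R = ⊤)
    (hR : ∀ a, a ∉ S → ∃ θ : K →ₐ[k] LaurentSeries k, θ p = lin a ∧
      ∀ s ∈ R, ∃ x : K, s ^ N = algebraMap K L x ∧ (N : ℤ) ∣ (θ x).order)
    (s : L) (hs : s ≠ 0) (hsp : s ^ 2 ∈ IntermediateField.adjoin k {algebraMap K L p}) :
    ∃ (T : Finset k) (r : L), (T : Set k) ⊆ S ∧
      r ∈ IntermediateField.adjoin k {algebraMap K L p} ∧
      s ^ 2 = r ^ 2 * ∏ b ∈ T, (algebraMap K L p - algebraMap k L b) := by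
  refine sqc (algebraMap K L p) S (s ^ 2) (pow_ne_zero 2 hs) hsp fun a ha => ?_
  obtain ⟨θ, hθ, hθR⟩ := hR a ha
  obtain ⟨θ', hθ'⟩ := ext_roots θ N hN R hθR htop
  refine ⟨θ', by rw [hθ', hθ], ?_⟩
  rw [map_pow, order_pow' _ ((map_ne_zero θ').2 hs)]
  exact ⟨(θ' s).order, by push_cast; ring⟩

end Sqc

end Vale.Agent.P022.H964.L3
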