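import Vale.Agent.P022.H964.L3.Orb

/-!
# P022-L3, [ECH]: descent of finite dimensional spaces of functions to `ℚ̄`
-/

namespace Vale.Agent.P022.H964.L3

/-- A finite dimensional space of functions is determined by its values at `dim` points. -/
theorem exists_points {K I : Type} [Field K] (d : ℕ) : ∀ (V : Type) [AddCommGroup V]
    [Module K V] [FiniteDimensional K V] (u : V →ₗ[K] (I → K)), Function.Injective u →
    Module.finrank K V = d → ∃ P : Finset I, P.card = d ∧ ∀ w : V, (∀ i ∈ P, u w i = 0) → w = 0 := by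
  classical
  induction d with
  | zero =>
    intro V _ _ _ u _ hV
    have := Module.finrank_zero_iff.1 hV
    exact ⟨∅, rfl, fun w _ => Subsingleton.elim _ _⟩
  | succ d ih =>
    intro V _ _ _ u hu hV
    have : Nontrivial V := Module.nontrivial_of_finrank_pos (R := K) (by omega)
    obtain ⟨v, hv⟩ := exists_ne (0 : V)
    have h1 : u v ≠ 0 := fun h => hv (hu (h.trans (map_zero u).symm))
    obtain ⟨i, hi⟩ := Function.ne_iff.1 h1
    let g : V →ₗ[K] K := (LinearMap.proj i).comp u
    have hgs : LinearMap.range g = ⊤ := by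
      rw [LinearMap.range_eq_top]
      exact LinearMap.surjective (fun h => hi (congrArg (fun f : V →ₗ[K] K => f v) h))
    have hr := g.finrank_range_add_finrank_ker
    rw [hgs, finrank_top, Module.finrank_self] at hr
    obtain ⟨P, hP, hP'⟩ := ih (LinearMap.ker g) (u.comp (LinearMap.ker g).subtype)
      (hu.comp Subtype.val_injective) (by omega)
    have hiP : i ∉ P := by
      intro h
      have h2 : ∀ w : LinearMap.ker g, (∀ j ∈ P.erase i, u w j = 0) → w = 0 := by
        intro w hw
        refine hP' w fun j hj => ?_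
        by_cases hji : j = i
        · subst hji
          exact w.2
        · exact hw j (Finset.mem_erase.2 ⟨hji, hj⟩)
      have h3 : Function.Injective ((LinearMap.pi fun (j : {x // x ∈ P.erase i}) =>
          (LinearMap.proj (j : I)).comp (u.comp (LinearMap.ker g).subtype)) :
          LinearMap.ker g →ₗ[K] ({x // x ∈ P.erase i} → K)) := by
        rw [injective_iff_map_eq_zero]
        intro w hw
        exact h2 w fun j hj => congrFun hw ⟨j, hj⟩
      have h4 := LinearMap.finrank_le_finrank_of_injective h3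
      rw [Module.finrank_fintype_fun_eq_card, Fintype.card_coe, Finset.card_erase_of_mem h] at h4
      have h5 : 0 < P.card := Finset.card_pos.2 ⟨i, h⟩
      omega
    refine ⟨insert i P, by rw [Finset.card_insert_of_notMem hiP, hP], fun w hw => ?_⟩
    have h2 : w ∈ LinearMap.ker g := hw i (Finset.mem_insert_self i P)
    have h3 := hP' ⟨w, h2⟩ fun j hj => hw j (Finset.mem_insert_of_mem hj)
    exact congrArg Subtype.val h3

/-- The dual basis. -/
theorem exists_dual {K I : Type} [Field K] [DecidableEq I] (V : Submodule K (I → K))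
    [FiniteDimensional K V] :
    ∃ (P : Finset I) (e : I → I → K), (∀ w ∈ V, (∀ i ∈ P, w i = 0) → w = 0) ∧
      (∀ p ∈ P, e p ∈ V ∧ ∀ q ∈ P, e p q = if p = q then 1 else 0) := by
  obtain ⟨P, hP, hP'⟩ := exists_points (Module.finrank K V) V V.subtype
    Subtype.val_injective rfl
  let r : V →ₗ[K] (P → K) := LinearMap.pi fun j : P => (LinearMap.proj (j : I)).comp V.subtype
  have hr : Function.Injective r := by
    rw [injective_iff_map_eq_zero]
    intro w hw
    exact hP' w fun j hj => congrFun hw ⟨j, hj⟩
  have hs : Function.Surjective r := by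
    refine (LinearMap.injective_iff_surjective_of_finrank_eq_finrank ?_).1 hr
    rw [Module.finrank_fintype_fun_eq_card, Fintype.card_coe, hP]
  choose s hs' using hs
  refine ⟨P, fun p => if h : p ∈ P then (s (Pi.single ⟨p, h⟩ 1) : I → K) else 0, ?_, ?_⟩
  · intro w hw h
    exact congrArg Subtype.val (hP' ⟨w, hw⟩ h)
  · intro p hp
    dsimp only
    rw [dif_pos hp]
    refine ⟨(s _).2, fun q hq => ?_⟩
    have h := congrFun (hs' (Pi.single ⟨p, hp⟩ 1)) ⟨q, hq⟩
    refine Eq.trans h ?_
    rw [Pi.single_apply]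
    by_cases hpq : p = q
    · subst hpq
      rw [if_pos rfl, if_pos rfl]
    · rw [if_neg hpq, if_neg fun h' => hpq (congrArg Subtype.val h').symm]

/-- **[ECH]** a finite dimensional space of functions with finitely many conjugates under
`Aut (ℂ / ℚ̄)` is spanned by functions with algebraic values. -/
theorem span_alg {I : Type} (V : Submodule ℂ (I → ℂ)) [FiniteDimensional ℂ V]
    (h : (Set.range fun σ : ℂ ≃ₐ[Qa] ℂ => (fun (v : I → ℂ) (i : I) => σ (v i)) ''
      (V : Set (I → ℂ))).Finite) :
    V = Submodule.span ℂ {v | v ∈ V ∧ ∀ i, IsAlgebraic ℚ (v i)} := by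
  classical
  obtain ⟨P, e, hP, he⟩ := exists_dual V
  have halg : ∀ p ∈ P, ∀ i, IsAlgebraic ℚ (e p i) := by
    intro p hp i
    refine alg_of_finite _ ?_
    -- the value depends only on the conjugate space
    let S : (ℂ ≃ₐ[Qa] ℂ) → Set (I → ℂ) := fun σ => (fun (v : I → ℂ) (i : I) => σ (v i)) ''
      (V : Set (I → ℂ))
    have hdep : ∀ σ τ : ℂ ≃ₐ[Qa] ℂ, S σ = S τ → σ (e p i) = τ (e p i) := by
      intro σ τ hst
      have h1 : (fun j => τ (e p j)) ∈ S σ := by
        rw [hst]
        exact ⟨e p, (he p hp).1, rfl⟩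
      obtain ⟨w, hw, hw'⟩ := h1
      have h2 : w - e p = 0 := by
        refine hP _ (V.sub_mem hw (he p hp).1) fun q hq => ?_
        have h3 : σ (w q) = τ (e p q) := congrFun hw' q
        rw [(he p hp).2 q hq] at h3
        have h4 : w q = if p = q then 1 else 0 := by
          apply σ.injective
          rw [h3]
          split_ifs <;> simp
        rw [Pi.sub_apply, h4, (he p hp).2 q hq, sub_self]
      have h5 : w = e p := sub_eq_zero.1 h2
      rw [h5] at hw'
      exact congrFun hw' i
    have hfac : ∃ F : Set (I → ℂ) → ℂ, ∀ σ, σ (e p i) = F (S σ) := by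
      refine ⟨fun T => if hT : ∃ σ, S σ = T then hT.choose (e p i) else 0, fun σ => ?_⟩
      have hT : ∃ τ, S τ = S σ := ⟨σ, rfl⟩
      dsimp only
      rw [dif_pos hT]
      exact hdep _ _ hT.choose_spec.symm
    obtain ⟨F, hF⟩ := hfac
    refine (h.image F).subset ?_
    rintro _ ⟨σ, rfl⟩
    exact ⟨S σ, ⟨σ, rfl⟩, (hF σ).symm⟩
  refine le_antisymm (fun v hv => ?_) (Submodule.span_le.2 fun v hv => hv.1)
  have h1 : v = ∑ p ∈ P, v p • e p := by
    have h2 : v - ∑ p ∈ P, v p • e p = 0 := by
      refine hP _ (V.sub_mem hv (V.sum_mem fun p hp => V.smul_mem _ (he p hp).1)) fun q hq => ?_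
      rw [Pi.sub_apply, Finset.sum_apply, Finset.sum_eq_single q]
      · rw [Pi.smul_apply, (he q hq).2 q hq, if_pos rfl, smul_eq_mul, mul_one, sub_self]
      · intro p hp hpq
        rw [Pi.smul_apply, (he p hp).2 q hq, if_neg hpq, smul_zero]
      · intro h
        exact absurd hq h
    exact sub_eq_zero.1 h2
  rw [h1]
  exact Submodule.sum_mem _ fun p hp => Submodule.smul_mem _ _
    (Submodule.subset_span ⟨(he p hp).1, halg p hp⟩)

end Vale.Agent.P022.H964.L3
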