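import Vale.Agent.P022.H542.L3.Geo
import Vale.Agent.P022.H619.L3.Ser

/-! # P022-L3, chapter G, row [KEYL]: the Gauss valuation of a `Geo` (the Geo side of `KeyStmt`) -/

noncomputable section

open HahnSeries
open scoped IntermediateField

namespace Vale.Agent.P022.H964.L3

open Vale.Agent.P022.H542.L3 Vale.Agent.P022.H619.L3

/-- `t ↦ t^m` as a map of `ℂ`-algebras -/
def sbA (m : ℕ) (hm : 0 < m) : LS →ₐ[ℂ] LS :=
  { sb m hm with
    commutes' := by
      intro a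
      rw [algebraMap_eq]
      exact sb_C m hm a }

@[simp] theorem sbA_apply (m : ℕ) (hm : 0 < m) (x : LS) : sbA m hm x = sb m hm x := rfl

theorem val_int (O : ValuationSubring ℂ) (z : ℤ) : O.valuation (z : ℂ) ≤ 1 :=
  (O.valuation_le_one_iff _).2 (intCast_mem O z)

/-- an integer prime to `ℓ` is a unit of a valuation ring above `ℓ` -/
theorem val_eq_one {O : ValuationSubring ℂ} {ℓ : ℕ} (hℓ : ℓ.Prime)
    (hO : O.valuation (ℓ : ℂ) < 1) {B : ℕ} (hB : ¬ ℓ ∣ B) : O.valuation (B : ℂ) = 1 := by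
  have h1 : IsCoprime (ℓ : ℤ) (B : ℤ) := by
    rw [Nat.isCoprime_iff_coprime]
    exact (hℓ.coprime_iff_not_dvd).2 hB
  obtain ⟨u, v, huv⟩ := h1
  have h2 : (v : ℂ) * (B : ℂ) = 1 + (-(u : ℂ) * (ℓ : ℂ)) := by
    have h3 : ((u * (ℓ : ℤ) + v * (B : ℤ) : ℤ) : ℂ) = ((1 : ℤ) : ℂ) := congrArg _ huv
    push_cast at h3
    linear_combination h3
  have h4 : O.valuation (-(u : ℂ) * (ℓ : ℂ)) < 1 := by
    rw [map_mul, Valuation.map_neg]
    exact (mul_le_of_le_one_left' (val_int O u)).trans_lt hO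
  have h5 : O.valuation (v : ℂ) * O.valuation (B : ℂ) = 1 := by
    rw [← map_mul, h2]
    exact Valuation.map_one_add_of_lt _ h4
  have h6 : O.valuation (B : ℂ) ≤ 1 := by
    have := val_int O (B : ℤ)
    rwa [Int.cast_natCast] at this
  refine le_antisymm h6 ?_
  rw [← h5]
  exact mul_le_of_le_one_left' (val_int O v)

theorem bint_mem {O : ValuationSubring ℂ} {B : ℕ} (hB : O.valuation (B : ℂ) = 1) {a : ℂ}
    (ha : BInt B a) : a ∈ O := by
  obtain ⟨m, z, h⟩ := ha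
  rw [← O.valuation_le_one_iff]
  have h1 : O.valuation a = O.valuation (z : ℂ) := by
    rw [← h, map_mul, map_pow, hB, one_pow, one_mul]
  rw [h1]
  exact val_int O z

theorem bunit_notMem {O : ValuationSubring ℂ} {B : ℕ} (hB : O.valuation (B : ℂ) = 1) {a : ℂ}
    (ha : BUnit B a) : a ∉ O.nonunits := by
  rw [ValuationSubring.mem_nonunits_iff, not_lt]
  have h1 : O.valuation a⁻¹ ≤ 1 := (O.valuation_le_one_iff _).2 (bint_mem hB ha.2.1)
  rw [map_inv₀] at h1
  have h2 : 0 < O.valuation a := zero_lt_iff.2 ((Valuation.ne_zero_iff _).2 ha.2.2)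
  exact (inv_le_one₀ h2).1 h1

section geo

variable {B : ℕ} (G : Geo B) {O : ValuationSubring ℂ} {W : ValuationSubring LS}

theorem coeff_mem (hB : O.valuation (B : ℂ) = 1) {r : G.K} (hr : r ∈ G.R) (n : ℤ) :
    (G.e r).coeff n ∈ O := by
  obtain ⟨m, h⟩ := G.int r hr
  exact bint_mem hB ⟨m, h n⟩

theorem coeff_sb_mem {x : LS} (hx : ∀ n, x.coeff n ∈ O) (N : ℕ) (hN : 0 < N) (n : ℤ) :
    (sb N hN x).coeff n ∈ O := by
  by_cases h : (N : ℤ) ∣ n
  · obtain ⟨k, rfl⟩ := h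
    rw [coeff_sb_mul]
    exact hx k
  · rw [coeff_sb_of_not_dvd _ _ _ _ h]
    exact O.zero_mem

/-- the valuation ring of `K` induced from `W` by the expansion in `t^(1/N)` -/
def VK (W : ValuationSubring LS) (N : ℕ) (hN : 0 < N) : ValuationSubring G.K :=
  W.comap (((sbA N hN).comp G.e : G.K →ₐ[ℂ] LS) : G.K →+* LS)

theorem mem_VK {N : ℕ} {hN : 0 < N} {x : G.K} : x ∈ VK G W N hN ↔ sb N hN (G.e x) ∈ W := Iff.rfl

theorem VK_lt {N : ℕ} {hN : 0 < N} {x : G.K} :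
    (VK G W N hN).valuation x < 1 ↔ W.valuation (sb N hN (G.e x)) < 1 := by
  rw [← ValuationSubring.mem_nonunits_iff, ← ValuationSubring.mem_nonunits_iff]
  exact mem_nonunits_comap _

/-- **the Hauptmodul gives a Gauss valuation** -/
theorem gauss (hB : O.valuation (B : ℂ) = 1) (hW : Wok O W) (N : ℕ) (hN : 0 < N) :
    IsGauss O (VK G W N hN) G.p := by
  obtain ⟨n, hn, hu⟩ := G.lead
  apply IsGauss.comap
  have h1 : (N : ℤ) * n ≠ 0 := mul_ne_zero (by exact_mod_cast hN.ne') hn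
  refine isGauss_of_series hW.mem ?_ (n := (N : ℤ) * n) ?_ h1 ?_
  · intro f hf
    rw [ValuationSubring.mem_nonunits_iff]
    exact hW.max f fun n => by
      have := hf n
      rwa [ValuationSubring.mem_nonunits_iff] at this
  · exact coeff_sb_mem (coeff_mem G hB G.pR) N hN
  · change (sb N hN (G.e G.p)).coeff ((N : ℤ) * n) ∉ _
    rw [coeff_sb_mul]
    exact bunit_notMem hB hu

/-- the cusp values in `O` -/
def SO (hB : O.valuation (B : ℂ) = 1) : Finset O :=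
  (G.S.attach : Finset {x : ℚ // x ∈ G.S}).image
    fun s : {x : ℚ // x ∈ G.S} => (⟨((s.1 : ℚ) : ℂ), bint_mem hB (G.Sint s.1 s.2)⟩ : O)

theorem mem_SO (hB : O.valuation (B : ℂ) = 1) {x : O} :
    x ∈ SO G hB ↔ ∃ s ∈ G.S, (x : ℂ) = (s : ℂ) := by
  rw [SO, Finset.mem_image]
  constructor
  · rintro ⟨s, -, rfl⟩
    exact ⟨s.1, s.2, rfl⟩
  · rintro ⟨s, hs, h⟩
    exact ⟨(⟨s, hs⟩ : {x : ℚ // x ∈ G.S}), Finset.mem_attach _ _, Subtype.ext h.symm⟩

theorem inj_SO (hB : O.valuation (B : ℂ) = 1) :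
    Set.InjOn (IsLocalRing.residue O) (SO G hB : Set O) := by
  intro x hx y hy h
  obtain ⟨s, hs, hxs⟩ := (mem_SO G hB).1 (Finset.mem_coe.1 hx)
  obtain ⟨s', hs', hys⟩ := (mem_SO G hB).1 (Finset.mem_coe.1 hy)
  by_contra hne
  have hss : s ≠ s' := by
    rintro rfl
    exact hne (Subtype.ext (hxs.trans hys.symm))
  have h1 : IsLocalRing.residue O (x - y) = 0 := by rw [map_sub, h, sub_self]
  rw [IsLocalRing.residue_eq_zero_iff, ← ValuationSubring.coe_mem_nonunits_iff] at h1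
  refine bunit_notMem hB (G.Ssep s hs s' hs' hss) ?_
  have h2 : ((x - y : O) : ℂ) = (s : ℂ) - s' := by
    rw [← hxs, ← hys]
    rfl
  rwa [h2] at h1

end geo

end Vale.Agent.P022.H964.L3
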